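import Vale.Agent.P325.Stmt
import Vale.Agent.P325.BaseFinal
import Vale.Agent.P325.BasePCP
import Vale.Agent.P325.BaseRound
import Vale.Agent.P325.Pre
import Vale.Agent.P325.Pow
import Vale.Agent.P325.Alph
import Vale.Agent.P325.Has
import Vale.Agent.P325.Rep
import Vale.Agent.P325.RepLC
import Vale.Agent.P325.Gadget
import Vale.Agent.P325.Sse
import Vale.Agent.P325.Inner

namespace Vale.Agent.Results.P325.A_full

open Vale.Agent.P325

/-- The Unique Games Conjecture: a polynomial-time reduction from 3-SAT to gap Unique Games. -/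
theorem result (ε δ : ℝ) (hε : 0 < ε) (hδ : 0 < δ) (_hεδ : ε + δ < 1) :
    ∃ k : ℕ, 2 ≤ k ∧ ∃ (f : CNF → UG k)
      (M : Turing.TM2ComputableInPolyTime codeCNF (codeUG k) f),
      (∀ j, Finite (M.tm.Γ j)) ∧
      ∀ φ : CNF, f φ ≠ [] ∧ (Sat φ → 1 - ε ≤ val (f φ)) ∧ (¬ Sat φ → val (f φ) ≤ δ) :=
  final (has (lc rep (pcp (round pre pow alph)))) (inner gadget sse rep) ε δ hε hδ

end Vale.Agent.Results.P325.A_full
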